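import Vale.Agent.P179.Sgn.Defs
import Vale.Agent.P179.H875.Corner
import Vale.Agent.P179.H524.SimpleIn

/-!
# The number of simple modules of a corner `f kG f` is at most that of the block

`Vale.P179.H365.lB_corner_le`: `f` idempotent, `b0` central idempotent, `b0 * f = f`
⟹ `lB k (f kG f) ≤ numSimpleIn b0`.
-/

set_option autoImplicit false

namespace Vale.P179.H365

open Module Vale.P179.Sgn Vale.P179.H875

section Mat

variable {k : Type*} [Field k] {n : Type*} [Fintype n] [DecidableEq n]

/-- In the corner of a matrix algebra every element of trace `0` lies in the span of the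
commutators of the corner. -/
theorem mem_of_trace_zero (φ : Matrix n n k) (M : Submodule k (Matrix n n k))
    (hM : ∀ A B : Matrix n n k, φ * A * φ * (φ * B * φ) - φ * B * φ * (φ * A * φ) ∈ M)
    (hφ : φ * φ = φ) (X : Matrix n n k) (hX : φ * X * φ = X) (ht : X.trace = 0) : X ∈ M := by
  classical
  by_cases h0 : φ = 0
  · rw [← hX, h0, Matrix.mul_zero]
    exact M.zero_mem
  obtain ⟨s, t, hst⟩ : ∃ s t, φ s t ≠ 0 := by
    by_contra h
    push Not at h
    exact h0 (Matrix.ext h)
  have hmid : ∀ (a b c d : n), φ * Matrix.single a b (1 : k) * φ * (φ * Matrix.single c d 1 * φ) =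
      φ b c • (φ * Matrix.single a d (1 : k) * φ) := by
    intro a b c d
    have h1 : φ * Matrix.single a b (1 : k) * φ * (φ * Matrix.single c d 1 * φ) =
        φ * (Matrix.single a b (1 : k) * (φ * φ) * Matrix.single c d 1) * φ := by
      simp only [Matrix.mul_assoc]
    have h2 : Matrix.single a b (1 : k) * φ * Matrix.single c d 1 =
        φ b c • Matrix.single a d (1 : k) := by
      ext i j
      simp only [Matrix.mul_apply, Matrix.single_apply, Matrix.smul_apply, smul_eq_mul]
      by_cases hi : a = i
      · by_cases hj : d = j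
        · subst hi hj
          simp
        · simp [hj]
      · simp [hi]
    rw [h1, hφ, h2, Matrix.mul_smul, Matrix.smul_mul]
  have hkey : ∀ a b : n, φ s t • (φ * Matrix.single a b (1 : k) * φ) -
      φ b a • (φ * Matrix.single t s (1 : k) * φ) ∈ M := by
    intro a b
    have h1 := hM (Matrix.single a s 1) (Matrix.single t b 1)
    rwa [hmid, hmid] at h1
  have hsum : φ s t • X - X.trace • (φ * Matrix.single t s (1 : k) * φ) ∈ M := by
    have h1 : X = ∑ a, ∑ b, X a b • (φ * Matrix.single a b (1 : k) * φ) := by
      have h2 : X = ∑ a, ∑ b, X a b • Matrix.single a b (1 : k) := by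
        conv_lhs => rw [Matrix.matrix_eq_sum_single X]
        simp
      conv_lhs => rw [← hX, h2]
      simp only [Finset.mul_sum, Finset.sum_mul, Matrix.mul_smul, Matrix.smul_mul]
    have h3 : X.trace = ∑ a, ∑ b, X a b * φ b a := by
      have h4 : (X * φ).trace = X.trace := by
        rw [← hX, Matrix.mul_assoc, hφ]
      rw [← h4, Matrix.trace]
      simp only [Matrix.diag_apply, Matrix.mul_apply]
    have h7 : φ s t • X = ∑ a, ∑ b, X a b • (φ s t • (φ * Matrix.single a b (1 : k) * φ)) := by
      conv_lhs => rw [h1]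
      simp only [Finset.smul_sum, smul_smul, mul_comm (φ s t)]
    have h5 : φ s t • X - X.trace • (φ * Matrix.single t s (1 : k) * φ) =
        ∑ a, ∑ b, X a b • (φ s t • (φ * Matrix.single a b (1 : k) * φ) -
          φ b a • (φ * Matrix.single t s (1 : k) * φ)) := by
      rw [h3, h7]
      simp only [smul_sub, Finset.sum_sub_distrib, Finset.sum_smul, smul_smul]
    rw [h5]
    exact M.sum_mem fun a _ => M.sum_mem fun b _ => M.smul_mem _ (hkey a b)
  rw [ht, zero_smul, sub_zero] at hsum
  have h6 := M.smul_mem (φ s t)⁻¹ hsum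
  rwa [smul_smul, inv_mul_cancel₀ hst, one_smul] at h6

end Mat

section Corner

open P179H524 P179C MonoidAlgebra

variable {k : Type} [Field k] {R : Type} [Ring R] [Algebra k R] {f : R} (hf : IsIdempotentElem f)

/-- The corner of a finite-dimensional algebra with split semisimple quotient: an element of the
corner whose image has all traces `0` lies in `TB`. -/
theorem mem_TB_corner [FiniteDimensional k R] {r : ℕ} {d : Fin r → ℕ}
    (F : R →ₐ[k] Π i, Matrix (Fin (d i)) (Fin (d i)) k) (hF : Function.Surjective F)
    (hker : ∀ x, F x = 0 → IsNilpotent x) (x : hf.Corner)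
    (hx : ∀ i, (F (cval hf x) i).trace = 0) : x ∈ TB k hf.Corner := by
  classical
  set Fc : hf.Corner →ₗ[k] (Π i, Matrix (Fin (d i)) (Fin (d i)) k) :=
    F.toLinearMap ∘ₗ cvalL (k := k) hf with hFc
  have hFc' : ∀ y, Fc y = F (cval hf y) := fun y => rfl
  -- the kernel of `Fc` consists of nilpotent elements
  have hk : LinearMap.ker Fc ≤ TB k hf.Corner := by
    intro y hy
    apply Submodule.subset_span
    left
    obtain ⟨n, hn⟩ := hker (cval hf y) hy
    refine ⟨n + 1, ?_⟩
    apply cval_injective hf
    have hpow : ∀ m : ℕ, cval hf (y ^ (m + 1)) = cval hf y ^ (m + 1) := by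
      intro m
      induction m with
      | zero => simp
      | succ m ih => rw [pow_succ, cval_mul, ih, ← pow_succ]
    rw [hpow, pow_succ, hn, zero_mul, cval_zero]
  -- it is enough that `Fc x` lies in the image of `TB`
  have hmap : Fc x ∈ (TB k hf.Corner).map Fc → x ∈ TB k hf.Corner := by
    rintro ⟨y, hy, hxy⟩
    have h1 : x - y ∈ LinearMap.ker Fc := by
      rw [LinearMap.mem_ker, map_sub, hxy, sub_self]
    have h2 := (TB k hf.Corner).add_mem (hk h1) hy
    rwa [sub_add_cancel] at h2
  apply hmap
  have hsum : Fc x = ∑ i, Pi.single i (Fc x i) := by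
    rw [Finset.univ_sum_single]
  rw [hsum]
  refine Submodule.sum_mem _ fun i _ => ?_
  -- the `i`-th component
  let M : Submodule k (Matrix (Fin (d i)) (Fin (d i)) k) :=
    ((TB k hf.Corner).map Fc).comap
      (LinearMap.single k (fun i => Matrix (Fin (d i)) (Fin (d i)) k) i)
  change Fc x i ∈ M
  have hFf : ∀ A : Matrix (Fin (d i)) (Fin (d i)) k, ∃ y : hf.Corner,
      Fc y = Pi.single i (F f i * A * F f i) := by
    intro A
    obtain ⟨a, ha⟩ := hF (Pi.single i A)
    refine ⟨cmk hf a, ?_⟩
    rw [hFc', cval_cmk, map_mul, map_mul, ha]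
    funext j
    by_cases hj : j = i
    · subst hj
      simp
    · simp [Pi.single_eq_of_ne hj]
  have hFmul : ∀ y z : hf.Corner, Fc (y * z) = Fc y * Fc z := by
    intro y z
    rw [hFc', cval_mul, map_mul]
    rfl
  apply mem_of_trace_zero (F f i) M
  · intro A B
    obtain ⟨y, hy⟩ := hFf A
    obtain ⟨z, hz⟩ := hFf B
    refine ⟨y * z - z * y, Submodule.subset_span (Or.inr ⟨y, z, rfl⟩), ?_⟩
    rw [map_sub, hFmul, hFmul, hy, hz]
    funext j
    by_cases hj : j = i
    · subst hj
      simp
    · simp [Pi.single_eq_of_ne hj]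
  · have h1 := congrFun (congrArg F hf.eq) i
    rwa [map_mul] at h1
  · have h1 := congrFun (congrArg F (left_cval hf x)) i
    have h2 := congrFun (congrArg F (cval_right hf x)) i
    rw [map_mul, Pi.mul_apply] at h1 h2
    rw [hFc', h1, h2]
  · exact hx i

/-- `lB` of a corner is at most the number of the simple components on which `f` is non-zero. -/
theorem lB_corner_le_card [FiniteDimensional k R] {r : ℕ} {d : Fin r → ℕ}
    (F : R →ₐ[k] Π i, Matrix (Fin (d i)) (Fin (d i)) k) (hF : Function.Surjective F)
    (hker : ∀ x, F x = 0 → IsNilpotent x) (P : Fin r → Prop) (hP : ∀ i, ¬ P i → F f i = 0) :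
    lB k hf.Corner ≤ Nat.card {i // P i} := by
  classical
  let T : hf.Corner →ₗ[k] ({i // P i} → k) :=
    { toFun := fun x i => (F (cval hf x) i.1).trace
      map_add' := fun x y => by
        funext i
        simp only [cval_add, map_add, Pi.add_apply, Matrix.trace_add]
      map_smul' := fun c x => by
        funext i
        simp only [cval_smul, map_smul, Pi.smul_apply, Matrix.trace_smul, RingHom.id_apply] }
  have hT : LinearMap.ker T ≤ TB k hf.Corner := by
    intro x hx
    apply mem_TB_corner hf F hF hker
    intro i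
    by_cases hi : P i
    · exact congrFun hx ⟨i, hi⟩
    · have h1 := congrFun (congrArg F (left_cval hf x)) i
      rw [map_mul, Pi.mul_apply, hP i hi, zero_mul] at h1
      rw [← h1, Matrix.trace_zero]
  have h1 : finrank k (hf.Corner ⧸ TB k hf.Corner) ≤ finrank k (hf.Corner ⧸ LinearMap.ker T) :=
    LinearMap.finrank_le_finrank_of_surjective (f := Submodule.factor hT)
      (Submodule.factor_surjective hT)
  have h2 : finrank k (hf.Corner ⧸ LinearMap.ker T) = finrank k (LinearMap.range T) :=
    LinearEquiv.finrank_eq T.quotKerEquivRange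
  have h3 : finrank k (LinearMap.range T) ≤ finrank k ({i // P i} → k) :=
    Submodule.finrank_le _
  rw [Module.finrank_fintype_fun_eq_card] at h3
  rw [Nat.card_eq_fintype_card]
  unfold lB
  omega

end Corner

section Group

open P179H524 P179C MonoidAlgebra

variable {k : Type} [Field k] [IsAlgClosed k] {G : Type} [Group G] [Finite G]

/-- **The corner lemma.** -/
theorem lB_corner_le {b0 f : MonoidAlgebra k G}
    (hb : b0 ∈ Subalgebra.center k (MonoidAlgebra k G)) (hb2 : b0 * b0 = b0)
    (hf : IsIdempotentElem f) (hbf : b0 * f = f) :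
    lB k hf.Corner ≤ P179C.numSimpleIn b0 := by
  classical
  have hfin : Module.Finite k (MonoidAlgebra k G) :=
    Module.Finite.equiv (MonoidAlgebra.coeffLinearEquiv k).symm
  obtain ⟨r, d, hd, F, hF, hker⟩ := exists_wedderburn k G
  obtain ⟨l, hl⟩ := C2.exists_scalar F hF b0 hb
  rw [C2.numSimpleIn_eq_card F hF hker b0 l hl]
  apply lB_corner_le_card hf F hF
  · intro x hx
    have hart : IsArtinianRing (MonoidAlgebra k G) := IsArtinianRing.of_finite k _
    obtain ⟨n, hn⟩ := IsSemiprimaryRing.isNilpotent (R := MonoidAlgebra k G)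
    refine ⟨n, ?_⟩
    have h1 := Ideal.pow_mem_pow (hker x hx) n
    rw [hn] at h1
    exact h1
  · intro i hi
    have h1 := congrFun (congrArg F hbf) i
    rw [map_mul, Pi.mul_apply, hl] at h1
    rcases C2.scalar_idem F b0 hb2 l hl i with h | h
    · rw [h, map_zero, zero_mul] at h1
      exact h1.symm
    · exact absurd h hi

end Group

end Vale.P179.H365
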