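import Vale.Agent.P179.Sgn.Final
import Vale.Agent.P179.H365.CornerL

/-!
# Module CRN of the SIGNATURE project
-/

set_option autoImplicit false

namespace Vale.P179.H365

open Module Vale.P179.Sgn

section Abs

variable {k : Type} [Field k] {R : Type} [Ring R] [Algebra k R] {f : R}
  {B : Type} [Ring B] [Algebra k B] (j : B →ₗ[k] R) (hj : Function.Injective j)
  (hm : ∀ x y, j (x * y) = j x * j y) (h1 : j 1 = f)
  (hr : ∀ a, f * a * f = a → a ∈ Set.range j)

include hj hm h1 hr in
/-- `mem_TB_corner` for an abstract copy `B` of the corner. -/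
theorem mem_TB {r : ℕ} {d : Fin r → ℕ}
    (F : R →ₐ[k] Π i, Matrix (Fin (d i)) (Fin (d i)) k) (hF : Function.Surjective F)
    (hker : ∀ x, F x = 0 → IsNilpotent x) (x : B)
    (hx : ∀ i, (F (j x) i).trace = 0) : x ∈ TB k B := by
  classical
  have hff : f * f = f := by rw [← h1, ← hm, one_mul]
  have hfx : ∀ y, f * j y = j y := fun y => by rw [← h1, ← hm, one_mul]
  have hxf : ∀ y, j y * f = j y := fun y => by rw [← h1, ← hm, mul_one]
  set Fc : B →ₗ[k] (Π i, Matrix (Fin (d i)) (Fin (d i)) k) := F.toLinearMap ∘ₗ j with hFc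
  have hFc' : ∀ y, Fc y = F (j y) := fun y => rfl
  have hk : LinearMap.ker Fc ≤ TB k B := by
    intro y hy
    apply Submodule.subset_span
    left
    obtain ⟨n, hn⟩ := hker (j y) hy
    refine ⟨n + 1, ?_⟩
    apply hj
    have hpow : ∀ m : ℕ, j (y ^ (m + 1)) = j y ^ (m + 1) := by
      intro m
      induction m with
      | zero => simp
      | succ m ih => rw [pow_succ, hm, ih, ← pow_succ]
    rw [hpow, pow_succ, hn, zero_mul, map_zero]
  have hmap : Fc x ∈ (TB k B).map Fc → x ∈ TB k B := by
    rintro ⟨y, hy, hxy⟩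
    have h1 : x - y ∈ LinearMap.ker Fc := by
      rw [LinearMap.mem_ker, map_sub, hxy, sub_self]
    have h2 := (TB k B).add_mem (hk h1) hy
    rwa [sub_add_cancel] at h2
  apply hmap
  have hsum : Fc x = ∑ i, Pi.single i (Fc x i) := by
    rw [Finset.univ_sum_single]
  rw [hsum]
  refine Submodule.sum_mem _ fun i _ => ?_
  let M : Submodule k (Matrix (Fin (d i)) (Fin (d i)) k) :=
    ((TB k B).map Fc).comap
      (LinearMap.single k (fun i => Matrix (Fin (d i)) (Fin (d i)) k) i)
  change Fc x i ∈ M
  have hFf : ∀ A : Matrix (Fin (d i)) (Fin (d i)) k, ∃ y : B,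
      Fc y = Pi.single i (F f i * A * F f i) := by
    intro A
    obtain ⟨a, ha⟩ := hF (Pi.single i A)
    obtain ⟨y, hy⟩ := hr (f * a * f) (by
      rw [show f * (f * a * f) * f = (f * f) * a * (f * f) by noncomm_ring, hff])
    refine ⟨y, ?_⟩
    rw [hFc', hy, map_mul, map_mul, ha]
    funext l
    by_cases hl : l = i
    · subst hl
      simp
    · simp [Pi.single_eq_of_ne hl]
  have hFmul : ∀ y z : B, Fc (y * z) = Fc y * Fc z := by
    intro y z
    rw [hFc', hm, map_mul]
    rfl
  apply mem_of_trace_zero (F f i) M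
  · intro A A'
    obtain ⟨y, hy⟩ := hFf A
    obtain ⟨z, hz⟩ := hFf A'
    refine ⟨y * z - z * y, Submodule.subset_span (Or.inr ⟨y, z, rfl⟩), ?_⟩
    rw [map_sub, hFmul, hFmul, hy, hz]
    funext l
    by_cases hl : l = i
    · subst hl
      simp
    · simp [Pi.single_eq_of_ne hl]
  · have h1 := congrFun (congrArg F hff) i
    rwa [map_mul] at h1
  · have h1 := congrFun (congrArg F (hfx x)) i
    have h2 := congrFun (congrArg F (hxf x)) i
    rw [map_mul, Pi.mul_apply] at h1 h2
    rw [hFc', h1, h2]
  · exact hx i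

include hj hm h1 hr in
/-- `lB` of a copy of the corner is at most the number of the simple components on which `f` is
non-zero. -/
theorem lB_le_card {r : ℕ} {d : Fin r → ℕ}
    (F : R →ₐ[k] Π i, Matrix (Fin (d i)) (Fin (d i)) k) (hF : Function.Surjective F)
    (hker : ∀ x, F x = 0 → IsNilpotent x) (P : Fin r → Prop) (hP : ∀ i, ¬ P i → F f i = 0) :
    lB k B ≤ Nat.card {i // P i} := by
  classical
  have hfx : ∀ y, f * j y = j y := fun y => by rw [← h1, ← hm, one_mul]
  let T : B →ₗ[k] ({i // P i} → k) :=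
    { toFun := fun x i => (F (j x) i.1).trace
      map_add' := fun x y => by
        funext i
        simp only [map_add, Pi.add_apply, Matrix.trace_add]
      map_smul' := fun c x => by
        funext i
        simp only [map_smul, Pi.smul_apply, Matrix.trace_smul, RingHom.id_apply] }
  have hT : LinearMap.ker T ≤ TB k B := by
    intro x hx
    apply mem_TB j hj hm h1 hr F hF hker
    intro i
    by_cases hi : P i
    · exact congrFun hx ⟨i, hi⟩
    · have h1 := congrFun (congrArg F (hfx x)) i
      rw [map_mul, Pi.mul_apply, hP i hi, zero_mul] at h1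
      rw [← h1, Matrix.trace_zero]
  have hfin : FiniteDimensional k (B ⧸ LinearMap.ker T) :=
    Module.Finite.equiv T.quotKerEquivRange.symm
  have h1 : finrank k (B ⧸ TB k B) ≤ finrank k (B ⧸ LinearMap.ker T) :=
    LinearMap.finrank_le_finrank_of_surjective (f := Submodule.factor hT)
      (Submodule.factor_surjective hT)
  have h2 : finrank k (B ⧸ LinearMap.ker T) = finrank k (LinearMap.range T) :=
    LinearEquiv.finrank_eq T.quotKerEquivRange
  have h3 : finrank k (LinearMap.range T) ≤ finrank k ({i // P i} → k) :=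
    Submodule.finrank_le _
  rw [Module.finrank_fintype_fun_eq_card] at h3
  rw [Nat.card_eq_fintype_card]
  unfold lB
  omega

end Abs

open P179H524 P179C MonoidAlgebra

/-- **Module CRN.** -/
theorem crn : CRN := by
  classical
  intro p _ k _ _ _ G _ _ b f hb hf hbf B _ _ j hj hm h1 hr
  have hfin : Module.Finite k (MonoidAlgebra k G) :=
    Module.Finite.equiv (MonoidAlgebra.coeffLinearEquiv k).symm
  obtain ⟨r, d, hd, F, hF, hker⟩ := exists_wedderburn k G
  obtain ⟨l, hl⟩ := C2.exists_scalar F hF b hb.1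
  rw [C2.numSimpleIn_eq_card F hF hker b l hl]
  apply lB_le_card j hj hm h1 hr F hF
  · intro x hx
    have hart : IsArtinianRing (MonoidAlgebra k G) := IsArtinianRing.of_finite k _
    obtain ⟨n, hn⟩ := IsSemiprimaryRing.isNilpotent (R := MonoidAlgebra k G)
    refine ⟨n, ?_⟩
    have h1 := Ideal.pow_mem_pow (hker x hx) n
    rw [hn] at h1
    exact h1
  · intro i hi
    have h1 := congrFun (congrArg F hbf) i
    rw [map_mul, Pi.mul_apply, hl] at h1
    rcases C2.scalar_idem F b hb.2.1 l hl i with h | h
    · rw [h, map_zero, zero_mul] at h1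
      exact h1.symm
    · exact absurd h hi

end Vale.P179.H365
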