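import Vale.Agent.P179.Allb.Defs

/-!
# MODULE GRPD: the semidirect product
-/

namespace Vale.P179.H365

open Vale.P179.Allb Vale.P179.Sgn

theorem grpd : GRPD := by
  intro p _ D _ _ _ τ e _ hτ
  have he0 : e ≠ 0 := NeZero.ne e
  -- the order of `τ`
  obtain ⟨d0, hd0⟩ := exists_ne (1 : D)
  have hord : orderOf τ = e := by
    refine Nat.dvd_antisymm (orderOf_dvd_of_pow_eq_one hτ.pow) ?_
    refine hτ.free _ d0 hd0 ?_
    rw [pow_orderOf_eq_one]; rfl
  have hfin : IsOfFinOrder τ := isOfFinOrder_iff_pow_eq_one.2 ⟨e, Nat.pos_of_ne_zero he0, hτ.pow⟩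
  have hZf : Finite (Subgroup.zpowers τ) := hfin.finite_zpowers
  let φ : Subgroup.zpowers τ →* MulAut D := (Subgroup.zpowers τ).subtype
  let t : Subgroup.zpowers τ := ⟨τ, Subgroup.mem_zpowers τ⟩
  have hcardZ : Nat.card (Subgroup.zpowers τ) = e := by rw [Nat.card_zpowers, hord]
  have hGf : Finite (D ⋊[φ] Subgroup.zpowers τ) := Finite.of_equiv _ SemidirectProduct.equivProd.symm
  have hcard : Nat.card (D ⋊[φ] Subgroup.zpowers τ) = Nat.card D * e := by
    rw [Nat.card_congr SemidirectProduct.equivProd, Nat.card_prod, hcardZ]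
  let i : D →* D ⋊[φ] Subgroup.zpowers τ := SemidirectProduct.inl
  let g : D ⋊[φ] Subgroup.zpowers τ := SemidirectProduct.inr t
  have hti : ∀ m : ℕ, t ^ m = ⟨τ ^ m, Subgroup.npow_mem_zpowers τ m⟩ := by
    intro m; ext1; simp [t]
  have hgm : ∀ (m : ℕ) (x : D), g ^ m * i x = i ((τ ^ m) x) * g ^ m := by
    intro m x
    have h1 : g ^ m = SemidirectProduct.inr (t ^ m) := by rw [map_pow]
    rw [h1]
    have h2 := SemidirectProduct.inl_aut (φ := φ) (t ^ m) x
    have h3 : φ (t ^ m) x = (τ ^ m) x := by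
      rw [hti]; rfl
    rw [h3] at h2
    rw [show i ((τ ^ m) x) = SemidirectProduct.inl ((τ ^ m) x) from rfl, h2, map_inv,
      inv_mul_cancel_right]
  have hinj : Function.Injective i := SemidirectProduct.inl_injective
  have hpow : g ^ e = 1 := by
    rw [show g ^ e = SemidirectProduct.inr (t ^ e) by rw [map_pow], hti]
    have : (⟨τ ^ e, Subgroup.npow_mem_zpowers τ e⟩ : Subgroup.zpowers τ) = 1 := by
      ext1; exact hτ.pow
    rw [this, map_one]
  have hgen : ∀ γ, ∃ (x : D) (s : ℕ), γ = i x * g ^ s := by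
    intro γ
    obtain ⟨s, hs⟩ : (γ.right : MulAut D) ∈ Submonoid.powers τ :=
      hfin.mem_powers_iff_mem_zpowers.2 γ.right.2
    refine ⟨γ.left, s, ?_⟩
    have h1 : γ.right = t ^ s := by rw [hti]; ext1; exact hs.symm
    have h2 := SemidirectProduct.inl_left_mul_inr_right γ
    rw [h1, map_pow] at h2
    exact h2.symm
  have hordg : orderOf g = e := by
    refine Nat.dvd_antisymm (orderOf_dvd_of_pow_eq_one hpow) ?_
    refine hτ.free _ d0 hd0 ?_
    have h1 := hgm (orderOf g) d0
    rw [pow_orderOf_eq_one, one_mul, mul_one] at h1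
    exact (hinj h1).symm
  refine ⟨D ⋊[φ] Subgroup.zpowers τ, inferInstance, Fintype.ofFinite _, i, g,
    ⟨hinj, fun x => by simpa using hgm 1 x, hpow, hgen, hcard⟩, ?_⟩
  refine ⟨i.range, g, ?_, ?_, ?_, ?_, hordg, ?_, ?_⟩
  · have : i.range = (SemidirectProduct.rightHom : D ⋊[φ] Subgroup.zpowers τ →* _).ker :=
      SemidirectProduct.range_inl_eq_ker_rightHom
    rw [this]; infer_instance
  · exact IsPGroup.of_surjective hτ.pgr i.rangeRestrict i.rangeRestrict_surjective
  · rintro _ ⟨x, rfl⟩ _ ⟨y, rfl⟩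
    rw [← map_mul, mul_comm, map_mul]
  · intro h
    apply hd0
    have h1 : i d0 ∈ (⊥ : Subgroup (D ⋊[φ] Subgroup.zpowers τ)) := by
      rw [← h]; exact ⟨d0, rfl⟩
    rw [Subgroup.mem_bot] at h1
    exact hinj (by rw [h1, map_one])
  · refine Subgroup.isComplement'_of_card_mul_and_disjoint ?_ ?_
    · rw [Nat.card_zpowers, hordg, hcard]
      congr 1
      exact Nat.card_congr (MonoidHom.ofInjective hinj).symm.toEquiv
    · rw [Subgroup.disjoint_def]
      rintro _ ⟨x, rfl⟩ hx
      obtain ⟨m, hm⟩ := hx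
      have h1 : SemidirectProduct.rightHom (i x) = (1 : Subgroup.zpowers τ) :=
        SemidirectProduct.rightHom_inl x
      have h2 : SemidirectProduct.rightHom (g ^ m) = t ^ m := by
        rw [map_zpow]; rfl
      have h3 : t ^ m = 1 := by
        rw [← h2, ← h1]
        exact congrArg _ hm
      have h4 : g ^ m = 1 := by
        rw [show g ^ m = SemidirectProduct.inr (t ^ m) by rw [map_zpow], h3, map_one]
      exact hm.symm.trans h4
  · rintro m _ ⟨x, rfl⟩ hx h
    refine hτ.free m x (fun h0 => hx (by rw [h0, map_one])) ?_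
    rw [hgm m x] at h
    exact hinj (mul_right_cancel h)

end Vale.P179.H365
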